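import Vale.Agent.P353.AN.NF.ExBas
import Vale.Agent.P353.AN.X2.StmtG

/-! # P353, all `N`: the model exists, given gamma matrices and a Clifford module (helper714) -/

open MeasureTheory Filter Topology Matrix
open scoped ContDiff

namespace Vale.Agent.P353.Z.AEX

/-- nine real symmetric gamma matrices -/
def GamStmt : Prop := ∃ γ : Fin 9 → Matrix (Fin 16) (Fin 16) ℝ, (∀ i, (γ i).transpose = γ i) ∧
  ∀ i j, γ i * γ j + γ j * γ i = if i = j then 2 else 0

/-- irreducible Clifford modules with an even number of generators -/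
def CliStmt : Prop := ∀ m : ℕ, ∃ (F : Type) (_ : NormedAddCommGroup F) (_ : InnerProductSpace ℂ F) (_ : FiniteDimensional ℂ F)
  (θ : Fin m ⊕ Fin m → F →L[ℂ] F), (∀ p v w, inner ℂ (θ p v) w = inner ℂ v (θ p w)) ∧
  (∀ p q v, θ p (θ q v) + θ q (θ p v) = if p = q then v else 0) ∧
  (∀ W : Submodule ℂ F, (∀ p, ∀ v ∈ W, θ p v ∈ W) → W = ⊥ ∨ W = ⊤) ∧ ∃ v : F, v ≠ 0

section structureConstants

variable {n d : ℕ} {T : Fin d → Matrix (Fin n) (Fin n) ℂ} {f : Fin d → Fin d → Fin d → ℝ} (h : Bas n d T f)
include h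

lemma bf_trace (A B C : Fin d) : ((T A * T B - T B * T A) * T C).trace = Complex.I * (f A B C : ℂ) := by
  rw [h.comm, Finset.sum_mul, Matrix.trace_sum]
  simp only [Matrix.smul_mul, Matrix.trace_smul, h.ortho, smul_eq_mul, mul_ite, mul_one,
    mul_zero, Finset.sum_ite_eq', Finset.mem_univ, if_true]

lemma bf_swap (A B C : Fin d) : f A B C = - f B A C := by
  have h1 := bf_trace h A B C
  have h2 := bf_trace h B A C
  have h3 : ((T A * T B - T B * T A) * T C).trace = -((T B * T A - T A * T B) * T C).trace := by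
    rw [← Matrix.trace_neg, ← Matrix.neg_mul, neg_sub]
  rw [h1, h2] at h3
  have h4 : Complex.I * ((f A B C : ℂ) + (f B A C : ℂ)) = 0 := by linear_combination h3
  have h5 : ((f A B C : ℂ) + (f B A C : ℂ)) = 0 := by
    rcases mul_eq_zero.mp h4 with h | h
    · exact absurd h Complex.I_ne_zero
    · exact h
  have h6 : f A B C + f B A C = 0 := by exact_mod_cast h5
  linarith

lemma bf_cyc (A B C : Fin d) : f A B C = f B C A := by
  have h1 := bf_trace h A B C
  have h2 := bf_trace h B C A
  have h3 : ((T A * T B - T B * T A) * T C).trace = ((T B * T C - T C * T B) * T A).trace := by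
    rw [Matrix.sub_mul, Matrix.sub_mul, Matrix.trace_sub, Matrix.trace_sub]
    have e1 : (T A * T B * T C).trace = (T B * T C * T A).trace := by
      rw [mul_assoc, Matrix.trace_mul_comm]
    have e2 : (T B * T A * T C).trace = (T C * T B * T A).trace := by
      rw [Matrix.trace_mul_comm, ← mul_assoc]
    rw [e1, e2]
  rw [h1, h2] at h3
  have h4 : Complex.I * ((f A B C : ℂ) - (f B C A : ℂ)) = 0 := by linear_combination h3
  have h5 : ((f A B C : ℂ) - (f B C A : ℂ)) = 0 := by
    rcases mul_eq_zero.mp h4 with h | h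
    · exact absurd h Complex.I_ne_zero
    · exact h
  have h6 : f A B C - f B C A = 0 := by exact_mod_cast h5
  linarith

lemma bf_trace2 (A B C D : Fin d) :
    (((T A * T B - T B * T A) * T C - T C * (T A * T B - T B * T A)) * T D).trace =
      -((∑ E, f A B E * f E C D : ℝ) : ℂ) := by
  have h1 : (T A * T B - T B * T A) * T C - T C * (T A * T B - T B * T A) =
      ∑ E, (Complex.I * (f A B E : ℂ)) • (T E * T C - T C * T E) := by
    rw [h.comm A B, Finset.sum_mul, Finset.mul_sum, ← Finset.sum_sub_distrib]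
    refine Finset.sum_congr rfl fun E _ => ?_
    rw [Matrix.smul_mul, Matrix.mul_smul, smul_sub]
  rw [h1, Finset.sum_mul, Matrix.trace_sum]
  push_cast
  rw [← Finset.sum_neg_distrib]
  refine Finset.sum_congr rfl fun E _ => ?_
  rw [Matrix.smul_mul, Matrix.trace_smul, bf_trace h, smul_eq_mul]
  linear_combination ((f A B E : ℂ) * (f E C D : ℂ)) * Complex.I_sq

lemma bf_jac (A B C D : Fin d) :
    ∑ E, (f A B E * f E C D + f B C E * f E A D + f C A E * f E B D) = 0 := by
  have h0 : ((T A * T B - T B * T A) * T C - T C * (T A * T B - T B * T A)) +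
      ((T B * T C - T C * T B) * T A - T A * (T B * T C - T C * T B)) +
      ((T C * T A - T A * T C) * T B - T B * (T C * T A - T A * T C)) = 0 := by
    noncomm_ring
  have h1 := congrArg (fun X => (X * T D).trace) h0
  simp only [Matrix.add_mul, Matrix.trace_add, bf_trace2 h, Matrix.zero_mul, Matrix.trace_zero] at h1
  rw [Finset.sum_add_distrib, Finset.sum_add_distrib]
  have h2 : (((∑ E, f A B E * f E C D) + (∑ E, f B C E * f E A D) +
      ∑ E, f C A E * f E B D : ℝ) : ℂ) = 0 := by
    push_cast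
    push_cast at h1
    linear_combination -h1
  exact_mod_cast h2

end structureConstants

/-- the setup of a basis, gamma matrices and a Clifford module -/
noncomputable def mkS {n d : ℕ} {F : Type*} [NormedAddCommGroup F] [InnerProductSpace ℂ F]
    {T : Fin d → Matrix (Fin n) (Fin n) ℂ} {f : Fin d → Fin d → Fin d → ℝ} (h : Bas n d T f)
    (γ : Fin 9 → Matrix (Fin 16) (Fin 16) ℝ) (h1 : ∀ i, (γ i).transpose = γ i)
    (h2 : ∀ i j, γ i * γ j + γ j * γ i = if i = j then 2 else 0) (θ : Fin 16 → Fin d → F →L[ℂ] F)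
    (h3 : ∀ α A (v w : F), inner ℂ (θ α A v) w = inner ℂ v (θ α A w))
    (h4 : ∀ α A β B v, θ α A (θ β B v) + θ β B (θ α A v) = if α = β ∧ A = B then v else 0) : Setup d F where
  g := fun i => (γ i).map Complex.ofRealHom
  g_symm := by
    intro i
    rw [← Matrix.transpose_map, h1]
  g_anti := by
    intro i j
    rw [← Matrix.map_mul, ← Matrix.map_mul, ← Matrix.map_add _ (map_add _), h2]
    split_ifs
    · ext α β
      by_cases h : α = β
      · simp [Matrix.ofNat_apply, h]
      · simp [Matrix.ofNat_apply, h]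
    · simp
  th := θ
  th_anti := by
    intro α A β B
    ext v
    have := h4 α A β B v
    simp only [_root_.add_apply, mul_apply_eq_comp]
    rw [this]
    split_ifs <;> simp
  κ := 1
  κ_pos := one_pos
  f := f
  f_swap := bf_swap h
  f_cyc := bf_cyc h
  f_jac := bf_jac h
  g_real := by
    intro i α β
    simp
  th_sa := h3

/-- **the data of the model exist** -/
theorem exists_model_of (hG : GamStmt) (hC : CliStmt) (hMod : AX2.ModStmt.{0}) (N : ℕ) (hN : 1 ≤ N) :
    ∃ (F : Type) (_ : NormedAddCommGroup F) (_ : InnerProductSpace ℂ F), Nonempty (BFSS.Model N (N ^ 2 - 1) F) := by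
  obtain ⟨T, f, hB⟩ := ANF.ex925_bas N hN
  obtain ⟨γ, h1, h2⟩ := hG
  obtain ⟨F, i1, i2, i3, θ, h3, h4, h5, h6⟩ := hC (8 * (N ^ 2 - 1))
  have hcard : Fintype.card (Fin 16 × Fin (N ^ 2 - 1)) =
      Fintype.card (Fin (8 * (N ^ 2 - 1)) ⊕ Fin (8 * (N ^ 2 - 1))) := by
    simp only [Fintype.card_prod, Fintype.card_fin, Fintype.card_sum]
    ring
  set e := Fintype.equivOfCardEq hcard
  have h7 : ∀ α A β B v, θ (e (α, A)) (θ (e (β, B)) v) + θ (e (β, B)) (θ (e (α, A)) v) =
      if α = β ∧ A = B then v else 0 := by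
    intro α A β B v
    rw [h4]
    by_cases h : α = β ∧ A = B
    · rw [if_pos h, if_pos (by rw [h.1, h.2])]
    · rw [if_neg h, if_neg]
      intro h8
      have h9 := e.injective h8
      exact h ⟨congrArg Prod.fst h9, congrArg Prod.snd h9⟩
  set S : Setup (N ^ 2 - 1) F := mkS hB γ h1 h2 (fun α A => θ (e (α, A))) (fun α A v w => h3 _ v w) h7 with hS
  have hirr : S.Irr := by
    intro W hW
    refine h5 W fun p v hv => ?_
    have h8 := hW (e.symm p).1 (e.symm p).2 v hv
    have h9 : S.th (e.symm p).1 (e.symm p).2 = θ p := by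
      change θ (e ((e.symm p).1, (e.symm p).2)) = θ p
      rw [Prod.mk.eta, Equiv.apply_symm_apply]
    rwa [h9] at h8
  obtain ⟨M, -, -⟩ := hMod N (N ^ 2 - 1) F i3 T S hB rfl hirr h6
  exact ⟨F, i1, i2, ⟨M⟩⟩

end Vale.Agent.P353.Z.AEX
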