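import Vale.Agent.P353.AN.EX.Cli
import Vale.Agent.P353.AN.EX.Gam
import Vale.Agent.P353.AN.EX.Of
import Vale.Agent.P353.AN.X2.AllA

/-! # P353, all `N`: the data of the model exist (helper714) -/

open MeasureTheory Filter Topology Matrix
open scoped ContDiff

namespace Vale.Agent.P353.Z.AEX

/-- **the data of the `SU(N)` BFSS model exist** for every `N ≥ 1` -/
theorem ex (N : ℕ) (hN : 1 ≤ N) : ∃ (F : Type) (_ : NormedAddCommGroup F) (_ : InnerProductSpace ℂ F),
    Nonempty (BFSS.Model N (N ^ 2 - 1) F) :=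
  exists_model_of gam cli AX2.modAll N hN

end Vale.Agent.P353.Z.AEX
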