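import Mathlib

/-! # P353, all `N`: existence of irreducible Clifford modules (E3, helper489) -/

namespace Vale.Agent.P353.Z.AEX

/-- there is an irreducible Clifford module with the generators `J` -/
def CliP (J : Type) [DecidableEq J] : Prop :=
  ∃ (F : Type) (_ : NormedAddCommGroup F) (_ : InnerProductSpace ℂ F) (_ : FiniteDimensional ℂ F)
    (θ : J → F →L[ℂ] F), (∀ p v w, inner ℂ (θ p v) w = inner ℂ v (θ p w)) ∧
    (∀ p q v, θ p (θ q v) + θ q (θ p v) = if p = q then v else 0) ∧
    (∀ W : Submodule ℂ F, (∀ p, ∀ v ∈ W, θ p v ∈ W) → W = ⊥ ∨ W = ⊤) ∧ ∃ v : F, v ≠ 0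

theorem cliP_congr {J J' : Type} [DecidableEq J] [DecidableEq J'] (e : J ≃ J') (h : CliP J) : CliP J' := by
  obtain ⟨F, i1, i2, i3, θ, h1, h2, h3, h4⟩ := h
  refine ⟨F, i1, i2, i3, fun p => θ (e.symm p), fun p v w => h1 _ v w, fun p q v => ?_, fun W hW => ?_, h4⟩
  · rw [h2]
    by_cases hpq : p = q
    · rw [if_pos hpq, if_pos (by rw [hpq])]
    · rw [if_neg hpq, if_neg fun h => hpq (e.symm.injective h)]
  · refine h3 W fun p v hv => ?_
    have h5 : θ (e.symm (e p)) v ∈ W := hW (e p) v hv
    rwa [Equiv.symm_apply_apply] at h5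

theorem cliP_zero {J : Type} [DecidableEq J] [IsEmpty J] : CliP J := by
  refine ⟨ℂ, inferInstance, inferInstance, inferInstance, fun p => isEmptyElim p, fun p => isEmptyElim p,
    fun p => isEmptyElim p, fun W _ => ?_, 1, one_ne_zero⟩
  by_cases h : W = ⊥
  · exact Or.inl h
  · right
    obtain ⟨w, hw, hw0⟩ := Submodule.exists_mem_ne_zero_of_ne_bot h
    rw [eq_top_iff]
    intro z _
    have h1 : z = (z / w) • w := by rw [smul_eq_mul, div_mul_cancel₀ _ hw0]
    rw [h1]
    exact W.smul_mem _ hw

section Step

variable {F : Type} [NormedAddCommGroup F] [InnerProductSpace ℂ F]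

/-- two copies -/
abbrev Db (F : Type) : Type := PiLp 2 fun _ : Bool => F

/-- signs -/
def sg (b : Bool) : ℂ := if b then -1 else 1

/-- phases -/
def ph (b : Bool) : ℂ := if b then Complex.I else -Complex.I

/-- the constant `1/√2` -/
noncomputable def cc : ℂ := ((Real.sqrt 2)⁻¹ : ℝ)

lemma sg_not (b : Bool) : sg (!b) = -sg b := by cases b <;> simp [sg]

lemma ph_not (b : Bool) : ph (!b) = -ph b := by cases b <;> simp [ph]

lemma conj_sg (b : Bool) : (starRingEnd ℂ) (sg b) = sg b := by cases b <;> simp [sg]

lemma conj_ph (b : Bool) : (starRingEnd ℂ) (ph b) = ph (!b) := by cases b <;> simp [ph]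

lemma conj_cc : (starRingEnd ℂ) cc = cc := Complex.conj_ofReal _

lemma cc_sq : cc * cc = 1 / 2 := by
  unfold cc
  rw [← Complex.ofReal_mul, ← mul_inv, Real.mul_self_sqrt (by norm_num)]
  norm_num

lemma sg_sq (b : Bool) : sg b * sg b = 1 := by cases b <;> simp [sg]

lemma ph_mul (b : Bool) : ph b * ph (!b) = 1 := by cases b <;> simp [ph]

/-- old generators -/
def og (A : F →L[ℂ] F) : Db F →ₗ[ℂ] Db F where
  toFun := fun x => WithLp.toLp 2 fun b => sg b • A (x b)
  map_add' := fun x y => by
    ext b
    simp [smul_add]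
  map_smul' := fun c x => by
    ext b
    simp [smul_comm c]

/-- new generators: `x ↦ (c w_b x_{!b})_b` -/
noncomputable def ng (w : Bool → ℂ) : Db F →ₗ[ℂ] Db F where
  toFun := fun x => WithLp.toLp 2 fun b => (cc * w b) • x (!b)
  map_add' := fun x y => by
    ext b
    simp [smul_add]
  map_smul' := fun c x => by
    ext b
    simp [smul_comm c]

lemma og_apply (A : F →L[ℂ] F) (x : Db F) (b : Bool) : og A x b = sg b • A (x b) := rfl

lemma ng_apply (w : Bool → ℂ) (x : Db F) (b : Bool) : ng w x b = (cc * w b) • x (!b) := rfl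

lemma og_sa {A : F →L[ℂ] F} (hA : ∀ v w, inner ℂ (A v) w = inner ℂ v (A w)) (x y : Db F) :
    inner ℂ (og A x) y = inner ℂ x (og A y) := by
  rw [PiLp.inner_apply, PiLp.inner_apply]
  refine Finset.sum_congr rfl fun b _ => ?_
  rw [og_apply, og_apply, inner_smul_left, inner_smul_right, hA, conj_sg]

lemma ng_sa {w : Bool → ℂ} (hw : ∀ b, (starRingEnd ℂ) (w b) = w (!b)) (x y : Db F) :
    inner ℂ (ng w x) y = inner ℂ x (ng w y) := by
  rw [PiLp.inner_apply, PiLp.inner_apply]
  refine (Equiv.sum_comp Equiv.boolNot fun b => inner ℂ (ng w x b) (y b)).symm.trans ?_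
  refine Finset.sum_congr rfl fun b _ => ?_
  simp only [Equiv.boolNot_apply]
  rw [ng_apply, ng_apply, inner_smul_left, inner_smul_right, map_mul, conj_cc, hw, Bool.not_not]

lemma og_og (A B : F →L[ℂ] F) (x : Db F) (b : Bool) : og A (og B x) b = A (B (x b)) := by
  rw [og_apply, og_apply, map_smul, smul_smul, sg_sq, one_smul]

lemma ng_ng (w w' : Bool → ℂ) (x : Db F) (b : Bool) :
    ng w (ng w' x) b = (1 / 2 * (w b * w' (!b))) • x b := by
  rw [ng_apply, ng_apply, smul_smul, Bool.not_not, ← cc_sq]
  congr 1
  ring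

lemma og_ng (A : F →L[ℂ] F) (w : Bool → ℂ) (x : Db F) : og A (ng w x) + ng w (og A x) = 0 := by
  ext b
  rw [PiLp.add_apply, og_apply, ng_apply, ng_apply, og_apply, map_smul, smul_smul, smul_smul, sg_not, ← add_smul]
  have : sg b * (cc * w b) + cc * w b * -sg b = 0 := by ring
  rw [this, zero_smul]
  rfl

/-- one component -/
noncomputable def si (b : Bool) : F →ₗ[ℂ] Db F where
  toFun := fun u => WithLp.toLp 2 fun b' => if b' = b then u else 0
  map_add' := fun x y => by
    ext b'
    by_cases h : b' = b <;> simp [h]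
  map_smul' := fun c x => by
    ext b'
    by_cases h : b' = b <;> simp [h]

lemma si_apply (b : Bool) (u : F) (b' : Bool) : si b u b' = if b' = b then u else 0 := rfl

theorem step {J : Type} [DecidableEq J] (h : CliP J) : CliP (J ⊕ Bool) := by
  obtain ⟨F, i1, i2, i3, θ, h1, h2, h3, v₀, hv₀⟩ := h
  obtain ⟨w, hw⟩ : ∃ w : Bool → Bool → ℂ, w = fun p => if p then ph else fun _ => 1 := ⟨_, rfl⟩
  have hwc : ∀ p b, (starRingEnd ℂ) (w p b) = w p (!b) := by
    intro p b
    rw [hw]
    cases p
    · simp
    · simp [conj_ph]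
  obtain ⟨Θ, hΘ⟩ : ∃ Θ : J ⊕ Bool → Db F →ₗ[ℂ] Db F, Θ = Sum.elim (fun p => og (θ p)) fun p => ng (w p) :=
    ⟨_, rfl⟩
  have hΘl : ∀ p, Θ (Sum.inl p) = og (θ p) := fun p => by rw [hΘ]; rfl
  have hΘr : ∀ p, Θ (Sum.inr p) = ng (w p) := fun p => by rw [hΘ]; rfl
  refine ⟨Db F, inferInstance, inferInstance, inferInstance, fun p => LinearMap.toContinuousLinearMap (Θ p),
    ?_, ?_, ?_, si false v₀, ?_⟩
  · intro p x y
    change inner ℂ (Θ p x) y = inner ℂ x (Θ p y)
    rcases p with p | p
    · rw [hΘl]
      exact og_sa (h1 p) x y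
    · rw [hΘr]
      exact ng_sa (hwc p) x y
  · intro p q x
    change Θ p (Θ q x) + Θ q (Θ p x) = if p = q then x else 0
    rcases p with p | p <;> rcases q with q | q
    · rw [hΘl, hΘl]
      ext b
      rw [PiLp.add_apply, og_og, og_og, h2]
      by_cases hpq : p = q
      · rw [if_pos hpq, if_pos (by rw [hpq])]
      · rw [if_neg hpq, if_neg fun h => hpq (Sum.inl_injective h)]
        rfl
    · rw [hΘl, hΘr, if_neg (by simp)]
      exact og_ng _ _ x
    · rw [hΘl, hΘr, if_neg (by simp), add_comm]
      exact og_ng _ _ x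
    · rw [hΘr, hΘr]
      ext b
      rw [PiLp.add_apply, ng_ng, ng_ng, ← add_smul]
      by_cases hpq : p = q
      · subst hpq
        rw [if_pos rfl]
        have h5 : w p b * w p (!b) = 1 := by
          rw [hw]
          cases p
          · simp
          · simp [ph_mul]
        rw [h5]
        norm_num
      · rw [if_neg fun h => hpq (Sum.inr_injective h)]
        have h5 : w p b * w q (!b) + w q b * w p (!b) = 0 := by
          rw [hw]
          cases p <;> cases q
          · exact absurd rfl hpq
          · simp [ph_not]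
          · simp [ph_not]
          · exact absurd rfl hpq
        have h6 : 1 / 2 * (w p b * w q (!b)) + 1 / 2 * (w q b * w p (!b)) = 0 := by
          rw [← mul_add, h5, mul_zero]
        rw [h6, zero_smul]
        rfl
  · intro W hW
    have hWn : ∀ p, ∀ x ∈ W, ng (w p) x ∈ W := fun p x hx => by
      have := hW (Sum.inr p) x hx
      change Θ (Sum.inr p) x ∈ W at this
      rwa [hΘr] at this
    have hWo : ∀ p, ∀ x ∈ W, og (θ p) x ∈ W := fun p x hx => by
      have := hW (Sum.inl p) x hx
      change Θ (Sum.inl p) x ∈ W at this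
      rwa [hΘl] at this
    -- the projections
    have hpr : ∀ x ∈ W, ∀ b, si b (x b) ∈ W := by
      intro x hx b
      have h5 := hWn false _ (hWn true x hx)
      have h6 : si b (x b) = (1 / 2 : ℂ) • x + (2 / 2 * (1 / ph (!b))) • ng (w false) (ng (w true) x) := by
        ext b'
        rw [PiLp.add_apply, PiLp.smul_apply, PiLp.smul_apply, ng_ng, si_apply, smul_smul, ← add_smul, hw]
        by_cases hb : b' = b
        · subst hb
          rw [if_pos rfl]
          have h7 : (1 / 2 + 2 / 2 * (1 / ph (!b')) * (1 / 2 * ((if false = true then ph else fun _ => 1) b' *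
              (if true = true then ph else fun _ => 1) (!b'))) : ℂ) = 1 := by
            cases b' <;> simp [ph] <;> ring_nf <;> simp [Complex.I_sq] <;> norm_num
          rw [h7, one_smul]
        · have hb' : b' = !b := by cases b <;> cases b' <;> simp_all
          rw [if_neg hb, hb', Bool.not_not]
          have h7 : (1 / 2 + 2 / 2 * (1 / ph (!b)) * (1 / 2 * ((if false = true then ph else fun _ => 1) (!b) *
              (if true = true then ph else fun _ => 1) b)) : ℂ) = 0 := by
            cases b <;> simp [ph] <;> ring_nf <;> simp [Complex.I_sq]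
          rw [h7, zero_smul]
      rw [h6]
      exact W.add_mem (W.smul_mem _ hx) (W.smul_mem _ h5)
    have hsw : ∀ b u, si b u ∈ W → si (!b) u ∈ W := by
      intro b u hu
      have h5 := hWn false _ hu
      have h6 : si (!b) u = (cc⁻¹) • ng (w false) (si b u) := by
        have hcc : cc ≠ 0 := by
          intro h
          have := cc_sq
          rw [h] at this
          norm_num at this
        ext b'
        rw [PiLp.smul_apply, ng_apply, si_apply, si_apply, smul_smul, hw]
        by_cases hb : b' = !b
        · rw [if_pos hb, if_pos (by rw [hb, Bool.not_not])]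
          simp [hcc]
        · rw [if_neg hb, if_neg (by intro h; apply hb; rw [← h, Bool.not_not]), smul_zero]
      rw [h6]
      exact W.smul_mem _ h5
    rcases h3 (W.comap (si false)) (fun p u hu => by
      change si false (θ p u) ∈ W
      have h5 := hWo p _ hu
      have h6 : si false (θ p u) = og (θ p) (si false u) := by
        ext b'
        rw [og_apply, si_apply, si_apply]
        cases b' <;> simp [sg]
      rw [h6]
      exact h5) with h5 | h5
    · left
      rw [eq_bot_iff]
      intro x hx
      rw [Submodule.mem_bot]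
      have key : ∀ u, si false u ∈ W → u = 0 := by
        intro u hu
        have : u ∈ W.comap (si false) := hu
        rw [h5, Submodule.mem_bot] at this
        exact this
      ext b
      cases b
      · exact key _ (hpr x hx false)
      · exact key _ (hsw true _ (hpr x hx true))
    · right
      rw [eq_top_iff]
      intro x _
      have key : ∀ u, si false u ∈ W := by
        intro u
        have : u ∈ W.comap (si false) := by rw [h5]; exact Submodule.mem_top
        exact this
      have h6 : x = si false (x false) + si true (x true) := by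
        ext b
        rw [PiLp.add_apply, si_apply, si_apply]
        cases b <;> simp
      rw [h6]
      exact W.add_mem (key _) (hsw false _ (key _))
  · intro h
    have h5 : si false v₀ false = (0 : Db F) false := by rw [h]
    rw [si_apply, if_pos rfl] at h5
    exact hv₀ h5

end Step

/-- **E3** existence of irreducible Clifford modules -/
theorem cli (m : ℕ) : ∃ (F : Type) (_ : NormedAddCommGroup F) (_ : InnerProductSpace ℂ F) (_ : FiniteDimensional ℂ F)
    (θ : Fin m ⊕ Fin m → F →L[ℂ] F), (∀ p v w, inner ℂ (θ p v) w = inner ℂ v (θ p w)) ∧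
    (∀ p q v, θ p (θ q v) + θ q (θ p v) = if p = q then v else 0) ∧
    (∀ W : Submodule ℂ F, (∀ p, ∀ v ∈ W, θ p v ∈ W) → W = ⊥ ∨ W = ⊤) ∧ ∃ v : F, v ≠ 0 := by
  have h : CliP (Fin m ⊕ Fin m) := by
    induction m with
    | zero => exact cliP_zero
    | succ m ih =>
      have e : (Fin m ⊕ Fin m) ⊕ Bool ≃ Fin (m + 1) ⊕ Fin (m + 1) :=
        Fintype.equivOfCardEq (by simp; ring)
      exact cliP_congr e (step ih)
  exact h

end Vale.Agent.P353.Z.AEX
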